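import Vale.Agent.P154.Lattice.Data.Lat1

/-!
# Lattice 1 is valid
-/

namespace Vale.P154.Lat.Data

theorem lat1_ok : parOk lat1 = true := by decide +kernel

theorem edgeTab1_ok : tall (eleafOk lat1) (lat1.dP + 2) 0 edgeTab1 = true := by decide +kernel

end Vale.P154.Lat.Data
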