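import Vale.Agent.P154.Lattice.Data.Lat0
import Vale.Agent.P154.Lattice.Data.Node0

/-!
# Generations 0 to 3
-/

namespace Vale.P154.Lat.Data

/-- The start of segment 0. -/
def start0 : Nat × Nat := (0, 549755813888)

/-- A law in segment 0. -/
def mid0_1 : Nat × Nat := (51541400991816508379423045311733026403759416224883338335934144668179964048916832944987142402124473632376435191468192357748605621144115602933539362465905927589167183666086074195698412183056388315139384073519104, 481036337152)

/-- A law in segment 0. -/
def mid0_2 : Nat × Nat := (11191376816248976812059229310860244105437124883804295565615421384116030357002599208063536075382457667486224777491235999031913299392951148020460094394013312083301920371837343661744954586681798654720316850271873751689047186061778422261887486701367948428749675449492466821321796246171341959997866755980151019996654461138147415291475762997466512025142277356256767040363271139075709411710643937094735665169787732406875888636760171308297513347009517994671071606689871566360486017681464942940455614676911462930713564460087954224041701316555220966331993221475366775323797831526083848411698345106595904544388357647932545858630742761649785419907387166798353431355801595058964178190427154441751559522636338343916794386501972575774902669996276771733334889399965898325884928, 439814717449)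

/-- A law in segment 0. -/
def fin0 : Nat × Nat := (526184973172629638327363757842779751999961932650448939830049946108321258425687775568867101755389523975577298291166743479696487409926146416817212482256962046074400983973480175553542946918328769565327211535001399145308518159833779520572552289687266466710361903877165707632055913919413467717555061098998118875492134070815274289459489258384377664116829279601380029089815319170545413583100751077556827962417818739652768581400574661988701296941375191242199346430004535099581971250258166436702477693314528458890981780308603977954313500395062067422220795247658871442559083626401350661940607589488083131233186141241181649868820731807124347474326106058325984234123827114002101460951525662149969143746090164655911320462128794848973482272987304757265090164610950090950830006047339310525461601959829460885926452799963470120616524046614395556046947601899212067058337552876232002790289552912294033071219263174522496315644733742352744294776301116749106294400170755641562436916803656250703978070590721456335779730949146208369840363234545895958554169321859965459814290827587797705502422242305174027803610192314067133995376261068446882800806449581801866649940726720714175263541439787770957967270720392318077553510521747782814153905491637080609035865828242682318867295499192822499169979615299128063036453379085451485666951846106998512139130621489859784669932303362409507976900944454923928183327991106743797818872191851818251351662079325782475336606095260864960206051605636087905472046620458413082867587491860342451391,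 408147091578)

/-- The checks of the segment, in one proof: one kernel computation at a time. -/
theorem steps0 :
    (stepOk lat0 nodeTab0 edgeTab0 start0.1 start0.2
    mid0_1.1 mid0_1.2 = true) ∧
    (stepOk lat0 nodeTab0 edgeTab0 mid0_1.1 mid0_1.2
    mid0_2.1 mid0_2.2 = true) ∧
    (stepOk lat0 nodeTab0 edgeTab0 mid0_2.1 mid0_2.2
    fin0.1 fin0.2 = true) :=
  ⟨by decide +kernel,
    by decide +kernel,
    by decide +kernel⟩

theorem step0_0 : stepOk lat0 nodeTab0 edgeTab0 start0.1 start0.2
    mid0_1.1 mid0_1.2 = true := steps0.1

theorem step0_1 : stepOk lat0 nodeTab0 edgeTab0 mid0_1.1 mid0_1.2
    mid0_2.1 mid0_2.2 = true := steps0.2.1

theorem step0_2 : stepOk lat0 nodeTab0 edgeTab0 mid0_2.1 mid0_2.2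
    fin0.1 fin0.2 = true := steps0.2.2

end Vale.P154.Lat.Data
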