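import Vale.Agent.P154.Lattice.Chain
import Vale.Agent.P154.Lattice.Data.Seg0
import Vale.Agent.P154.Lattice.Data.Seg1
import Vale.Agent.P154.Lattice.Data.Seg2
import Vale.Agent.P154.Lattice.Data.Seg3
import Vale.Agent.P154.Lattice.Data.Seg4
import Vale.Agent.P154.Lattice.Data.Seg5
import Vale.Agent.P154.Lattice.Data.Seg6
import Vale.Agent.P154.Lattice.Data.Seg7
import Vale.Agent.P154.Lattice.Data.Seg8
import Vale.Agent.P154.Lattice.Data.Seg9
import Vale.Agent.P154.Lattice.Data.Seg10
import Vale.Agent.P154.Lattice.Data.Seg11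
import Vale.Agent.P154.Lattice.Data.Seg12
import Vale.Agent.P154.Lattice.Data.Seg13
import Vale.Agent.P154.Lattice.Data.Seg14
import Vale.Agent.P154.Lattice.Data.Seg15
import Vale.Agent.P154.Lattice.Data.Seg16
import Vale.Agent.P154.Lattice.Data.Seg17
import Vale.Agent.P154.Lattice.Data.Seg18
import Vale.Agent.P154.Lattice.Data.Seg19
import Vale.Agent.P154.Lattice.Data.Seg20
import Vale.Agent.P154.Lattice.Data.Seg21
import Vale.Agent.P154.Lattice.Data.Seg22
import Vale.Agent.P154.Lattice.Data.Seg23
import Vale.Agent.P154.Lattice.Data.Seg24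
import Vale.Agent.P154.Lattice.Data.Seg25
import Vale.Agent.P154.Lattice.Data.Seg26
import Vale.Agent.P154.Lattice.Data.Seg27
import Vale.Agent.P154.Lattice.Data.Seg28
import Vale.Agent.P154.Lattice.Data.Seg29
import Vale.Agent.P154.Lattice.Data.Seg30
import Vale.Agent.P154.Lattice.Data.Seg31
import Vale.Agent.P154.Lattice.Data.Seg32
import Vale.Agent.P154.Lattice.Data.Seg33
import Vale.Agent.P154.Lattice.Data.Seg34
import Vale.Agent.P154.Lattice.Data.Seg35
import Vale.Agent.P154.Lattice.Data.Seg36
import Vale.Agent.P154.Lattice.Data.Seg37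
import Vale.Agent.P154.Lattice.Data.Seg38
import Vale.Agent.P154.Lattice.Data.Seg39
import Vale.Agent.P154.Lattice.Data.Seg40
import Vale.Agent.P154.Lattice.Data.Seg41
import Vale.Agent.P154.Lattice.Data.Seg42
import Vale.Agent.P154.Lattice.Data.Seg43
import Vale.Agent.P154.Lattice.Data.Seg44
import Vale.Agent.P154.Lattice.Data.Seg45
import Vale.Agent.P154.Lattice.Data.Seg46
import Vale.Agent.P154.Lattice.Data.Seg47
import Vale.Agent.P154.Lattice.Data.CheckLat0
import Vale.Agent.P154.Lattice.Data.CheckLat1
import Vale.Agent.P154.Lattice.Data.Check0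
import Vale.Agent.P154.Lattice.Data.Check1
import Vale.Agent.P154.Lattice.Data.Check2

/-!
# The whole chain of generations
-/

namespace Vale.P154.Lat.Data

theorem seg0 (h : Below (sval lat0 start0.1 start0.2) 0) :
    Below (sval lat0 fin0.1 fin0.2) 3 :=
  below_step lat0_ok nodeTab0_ok edgeTab0_ok step0_2
    (below_step lat0_ok nodeTab0_ok edgeTab0_ok step0_1
    (below_step lat0_ok nodeTab0_ok edgeTab0_ok step0_0
    (h)))

theorem seg1 (h : Below (sval lat0 start1.1 start1.2) 3) :
    Below (sval lat0 fin1.1 fin1.2) 6 :=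
  below_step lat0_ok nodeTab0_ok edgeTab0_ok step1_2
    (below_step lat0_ok nodeTab0_ok edgeTab0_ok step1_1
    (below_step lat0_ok nodeTab0_ok edgeTab0_ok step1_0
    (h)))

theorem seg2 (h : Below (sval lat0 start2.1 start2.2) 6) :
    Below (sval lat0 fin2.1 fin2.2) 9 :=
  below_step lat0_ok nodeTab0_ok edgeTab0_ok step2_2
    (below_step lat0_ok nodeTab0_ok edgeTab0_ok step2_1
    (below_step lat0_ok nodeTab0_ok edgeTab0_ok step2_0
    (h)))

theorem seg3 (h : Below (sval lat0 start3.1 start3.2) 9) :
    Below (sval lat0 fin3.1 fin3.2) 12 :=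
  below_step lat0_ok nodeTab0_ok edgeTab0_ok step3_2
    (below_step lat0_ok nodeTab0_ok edgeTab0_ok step3_1
    (below_step lat0_ok nodeTab0_ok edgeTab0_ok step3_0
    (h)))

theorem seg4 (h : Below (sval lat0 start4.1 start4.2) 12) :
    Below (sval lat0 fin4.1 fin4.2) 15 :=
  below_step lat0_ok nodeTab0_ok edgeTab0_ok step4_2
    (below_step lat0_ok nodeTab0_ok edgeTab0_ok step4_1
    (below_step lat0_ok nodeTab0_ok edgeTab0_ok step4_0
    (h)))

theorem seg5 (h : Below (sval lat0 start5.1 start5.2) 15) :
    Below (sval lat0 fin5.1 fin5.2) 18 :=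
  below_step lat0_ok nodeTab0_ok edgeTab0_ok step5_2
    (below_step lat0_ok nodeTab0_ok edgeTab0_ok step5_1
    (below_step lat0_ok nodeTab0_ok edgeTab0_ok step5_0
    (h)))

theorem seg6 (h : Below (sval lat0 start6.1 start6.2) 18) :
    Below (sval lat0 fin6.1 fin6.2) 21 :=
  below_step lat0_ok nodeTab0_ok edgeTab0_ok step6_2
    (below_step lat0_ok nodeTab0_ok edgeTab0_ok step6_1
    (below_step lat0_ok nodeTab0_ok edgeTab0_ok step6_0
    (h)))

theorem seg7 (h : Below (sval lat0 start7.1 start7.2) 21) :
    Below (sval lat0 fin7.1 fin7.2) 24 :=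
  below_step lat0_ok nodeTab0_ok edgeTab0_ok step7_2
    (below_step lat0_ok nodeTab0_ok edgeTab0_ok step7_1
    (below_step lat0_ok nodeTab0_ok edgeTab0_ok step7_0
    (h)))

theorem seg8 (h : Below (sval lat0 start8.1 start8.2) 24) :
    Below (sval lat0 fin8.1 fin8.2) 27 :=
  below_step lat0_ok nodeTab0_ok edgeTab0_ok step8_2
    (below_step lat0_ok nodeTab0_ok edgeTab0_ok step8_1
    (below_step lat0_ok nodeTab0_ok edgeTab0_ok step8_0
    (h)))

theorem seg9 (h : Below (sval lat0 start9.1 start9.2) 27) :
    Below (sval lat0 fin9.1 fin9.2) 30 :=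
  below_step lat0_ok nodeTab0_ok edgeTab0_ok step9_2
    (below_step lat0_ok nodeTab0_ok edgeTab0_ok step9_1
    (below_step lat0_ok nodeTab0_ok edgeTab0_ok step9_0
    (h)))

theorem seg10 (h : Below (sval lat0 start10.1 start10.2) 30) :
    Below (sval lat0 fin10.1 fin10.2) 33 :=
  below_step lat0_ok nodeTab0_ok edgeTab0_ok step10_2
    (below_step lat0_ok nodeTab0_ok edgeTab0_ok step10_1
    (below_step lat0_ok nodeTab0_ok edgeTab0_ok step10_0
    (h)))

theorem seg11 (h : Below (sval lat0 start11.1 start11.2) 33) :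
    Below (sval lat0 fin11.1 fin11.2) 36 :=
  below_step lat0_ok nodeTab0_ok edgeTab0_ok step11_2
    (below_step lat0_ok nodeTab0_ok edgeTab0_ok step11_1
    (below_step lat0_ok nodeTab0_ok edgeTab0_ok step11_0
    (h)))

theorem seg12 (h : Below (sval lat0 start12.1 start12.2) 36) :
    Below (sval lat0 fin12.1 fin12.2) 39 :=
  below_step lat0_ok nodeTab0_ok edgeTab0_ok step12_2
    (below_step lat0_ok nodeTab0_ok edgeTab0_ok step12_1
    (below_step lat0_ok nodeTab0_ok edgeTab0_ok step12_0
    (h)))

theorem seg13 (h : Below (sval lat0 start13.1 start13.2) 39) :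
    Below (sval lat0 fin13.1 fin13.2) 42 :=
  below_step lat0_ok nodeTab0_ok edgeTab0_ok step13_2
    (below_step lat0_ok nodeTab0_ok edgeTab0_ok step13_1
    (below_step lat0_ok nodeTab0_ok edgeTab0_ok step13_0
    (h)))

theorem seg14 (h : Below (sval lat0 start14.1 start14.2) 42) :
    Below (sval lat0 fin14.1 fin14.2) 45 :=
  below_step lat0_ok nodeTab0_ok edgeTab0_ok step14_2
    (below_step lat0_ok nodeTab0_ok edgeTab0_ok step14_1
    (below_step lat0_ok nodeTab0_ok edgeTab0_ok step14_0
    (h)))

theorem seg15 (h : Below (sval lat0 start15.1 start15.2) 45) :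
    Below (sval lat0 fin15.1 fin15.2) 48 :=
  below_step lat0_ok nodeTab0_ok edgeTab0_ok step15_2
    (below_step lat0_ok nodeTab0_ok edgeTab0_ok step15_1
    (below_step lat0_ok nodeTab0_ok edgeTab0_ok step15_0
    (h)))

theorem seg16 (h : Below (sval lat0 start16.1 start16.2) 48) :
    Below (sval lat0 fin16.1 fin16.2) 51 :=
  below_step lat0_ok nodeTab0_ok edgeTab0_ok step16_2
    (below_step lat0_ok nodeTab0_ok edgeTab0_ok step16_1
    (below_step lat0_ok nodeTab0_ok edgeTab0_ok step16_0
    (h)))

theorem seg17 (h : Below (sval lat0 start17.1 start17.2) 51) :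
    Below (sval lat0 fin17.1 fin17.2) 54 :=
  below_step lat0_ok nodeTab0_ok edgeTab0_ok step17_2
    (below_step lat0_ok nodeTab0_ok edgeTab0_ok step17_1
    (below_step lat0_ok nodeTab0_ok edgeTab0_ok step17_0
    (h)))

theorem seg18 (h : Below (sval lat0 start18.1 start18.2) 54) :
    Below (sval lat0 fin18.1 fin18.2) 57 :=
  below_step lat0_ok nodeTab0_ok edgeTab0_ok step18_2
    (below_step lat0_ok nodeTab0_ok edgeTab0_ok step18_1
    (below_step lat0_ok nodeTab0_ok edgeTab0_ok step18_0
    (h)))

theorem seg19 (h : Below (sval lat0 start19.1 start19.2) 57) :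
    Below (sval lat0 fin19.1 fin19.2) 60 :=
  below_step lat0_ok nodeTab0_ok edgeTab0_ok step19_2
    (below_step lat0_ok nodeTab0_ok edgeTab0_ok step19_1
    (below_step lat0_ok nodeTab0_ok edgeTab0_ok step19_0
    (h)))

theorem seg20 (h : Below (sval lat0 start20.1 start20.2) 60) :
    Below (sval lat0 fin20.1 fin20.2) 63 :=
  below_step lat0_ok nodeTab0_ok edgeTab0_ok step20_2
    (below_step lat0_ok nodeTab0_ok edgeTab0_ok step20_1
    (below_step lat0_ok nodeTab0_ok edgeTab0_ok step20_0
    (h)))

theorem seg21 (h : Below (sval lat0 start21.1 start21.2) 63) :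
    Below (sval lat0 fin21.1 fin21.2) 66 :=
  below_step lat0_ok nodeTab0_ok edgeTab0_ok step21_2
    (below_step lat0_ok nodeTab0_ok edgeTab0_ok step21_1
    (below_step lat0_ok nodeTab0_ok edgeTab0_ok step21_0
    (h)))

theorem seg22 (h : Below (sval lat0 start22.1 start22.2) 66) :
    Below (sval lat0 fin22.1 fin22.2) 69 :=
  below_step lat0_ok nodeTab0_ok edgeTab0_ok step22_2
    (below_step lat0_ok nodeTab0_ok edgeTab0_ok step22_1
    (below_step lat0_ok nodeTab0_ok edgeTab0_ok step22_0
    (h)))

theorem seg23 (h : Below (sval lat0 start23.1 start23.2) 69) :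
    Below (sval lat0 fin23.1 fin23.2) 72 :=
  below_step lat0_ok nodeTab0_ok edgeTab0_ok step23_2
    (below_step lat0_ok nodeTab0_ok edgeTab0_ok step23_1
    (below_step lat0_ok nodeTab0_ok edgeTab0_ok step23_0
    (h)))

theorem seg24 (h : Below (sval lat0 start24.1 start24.2) 72) :
    Below (sval lat1 fin24.1 fin24.2) 72 :=
  below_switch lat0_ok lat1_ok sw24 h

theorem seg25 (h : Below (sval lat1 start25.1 start25.2) 72) :
    Below (sval lat1 fin25.1 fin25.2) 75 :=
  below_step lat1_ok nodeTab1_ok edgeTab1_ok step25_2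
    (below_step lat1_ok nodeTab1_ok edgeTab1_ok step25_1
    (below_step lat1_ok nodeTab1_ok edgeTab1_ok step25_0
    (h)))

theorem seg26 (h : Below (sval lat1 start26.1 start26.2) 75) :
    Below (sval lat1 fin26.1 fin26.2) 78 :=
  below_step lat1_ok nodeTab1_ok edgeTab1_ok step26_2
    (below_step lat1_ok nodeTab1_ok edgeTab1_ok step26_1
    (below_step lat1_ok nodeTab1_ok edgeTab1_ok step26_0
    (h)))

theorem seg27 (h : Below (sval lat1 start27.1 start27.2) 78) :
    Below (sval lat1 fin27.1 fin27.2) 81 :=
  below_step lat1_ok nodeTab1_ok edgeTab1_ok step27_2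
    (below_step lat1_ok nodeTab1_ok edgeTab1_ok step27_1
    (below_step lat1_ok nodeTab1_ok edgeTab1_ok step27_0
    (h)))

theorem seg28 (h : Below (sval lat1 start28.1 start28.2) 81) :
    Below (sval lat1 fin28.1 fin28.2) 84 :=
  below_step lat1_ok nodeTab1_ok edgeTab1_ok step28_2
    (below_step lat1_ok nodeTab1_ok edgeTab1_ok step28_1
    (below_step lat1_ok nodeTab1_ok edgeTab1_ok step28_0
    (h)))

theorem seg29 (h : Below (sval lat1 start29.1 start29.2) 84) :
    Below (sval lat1 fin29.1 fin29.2) 87 :=
  below_step lat1_ok nodeTab1_ok edgeTab1_ok step29_2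
    (below_step lat1_ok nodeTab1_ok edgeTab1_ok step29_1
    (below_step lat1_ok nodeTab1_ok edgeTab1_ok step29_0
    (h)))

theorem seg30 (h : Below (sval lat1 start30.1 start30.2) 87) :
    Below (sval lat1 fin30.1 fin30.2) 90 :=
  below_step lat1_ok nodeTab1_ok edgeTab1_ok step30_2
    (below_step lat1_ok nodeTab1_ok edgeTab1_ok step30_1
    (below_step lat1_ok nodeTab1_ok edgeTab1_ok step30_0
    (h)))

theorem seg31 (h : Below (sval lat1 start31.1 start31.2) 90) :
    Below (sval lat1 fin31.1 fin31.2) 93 :=
  below_step lat1_ok nodeTab1_ok edgeTab1_ok step31_2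
    (below_step lat1_ok nodeTab1_ok edgeTab1_ok step31_1
    (below_step lat1_ok nodeTab1_ok edgeTab1_ok step31_0
    (h)))

theorem seg32 (h : Below (sval lat1 start32.1 start32.2) 93) :
    Below (sval lat1 fin32.1 fin32.2) 96 :=
  below_step lat1_ok nodeTab1_ok edgeTab1_ok step32_2
    (below_step lat1_ok nodeTab1_ok edgeTab1_ok step32_1
    (below_step lat1_ok nodeTab1_ok edgeTab1_ok step32_0
    (h)))

theorem seg33 (h : Below (sval lat1 start33.1 start33.2) 96) :
    Below (sval lat1 fin33.1 fin33.2) 99 :=
  below_step lat1_ok nodeTab1_ok edgeTab1_ok step33_2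
    (below_step lat1_ok nodeTab1_ok edgeTab1_ok step33_1
    (below_step lat1_ok nodeTab1_ok edgeTab1_ok step33_0
    (h)))

theorem seg34 (h : Below (sval lat1 start34.1 start34.2) 99) :
    Below (sval lat1 fin34.1 fin34.2) 100 :=
  below_step lat1_ok nodeTab1_ok edgeTab1_ok step34_0
    (h)

theorem seg35 (h : Below (sval lat1 start35.1 start35.2) 100) :
    Below (sval lat1 fin35.1 fin35.2) 103 :=
  below_step lat1_ok nodeTab2_ok edgeTab1_ok step35_2
    (below_step lat1_ok nodeTab2_ok edgeTab1_ok step35_1
    (below_step lat1_ok nodeTab2_ok edgeTab1_ok step35_0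
    (h)))

theorem seg36 (h : Below (sval lat1 start36.1 start36.2) 103) :
    Below (sval lat1 fin36.1 fin36.2) 106 :=
  below_step lat1_ok nodeTab2_ok edgeTab1_ok step36_2
    (below_step lat1_ok nodeTab2_ok edgeTab1_ok step36_1
    (below_step lat1_ok nodeTab2_ok edgeTab1_ok step36_0
    (h)))

theorem seg37 (h : Below (sval lat1 start37.1 start37.2) 106) :
    Below (sval lat1 fin37.1 fin37.2) 109 :=
  below_step lat1_ok nodeTab2_ok edgeTab1_ok step37_2
    (below_step lat1_ok nodeTab2_ok edgeTab1_ok step37_1
    (below_step lat1_ok nodeTab2_ok edgeTab1_ok step37_0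
    (h)))

theorem seg38 (h : Below (sval lat1 start38.1 start38.2) 109) :
    Below (sval lat1 fin38.1 fin38.2) 112 :=
  below_step lat1_ok nodeTab2_ok edgeTab1_ok step38_2
    (below_step lat1_ok nodeTab2_ok edgeTab1_ok step38_1
    (below_step lat1_ok nodeTab2_ok edgeTab1_ok step38_0
    (h)))

theorem seg39 (h : Below (sval lat1 start39.1 start39.2) 112) :
    Below (sval lat1 fin39.1 fin39.2) 115 :=
  below_step lat1_ok nodeTab2_ok edgeTab1_ok step39_2
    (below_step lat1_ok nodeTab2_ok edgeTab1_ok step39_1
    (below_step lat1_ok nodeTab2_ok edgeTab1_ok step39_0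
    (h)))

theorem seg40 (h : Below (sval lat1 start40.1 start40.2) 115) :
    Below (sval lat1 fin40.1 fin40.2) 118 :=
  below_step lat1_ok nodeTab2_ok edgeTab1_ok step40_2
    (below_step lat1_ok nodeTab2_ok edgeTab1_ok step40_1
    (below_step lat1_ok nodeTab2_ok edgeTab1_ok step40_0
    (h)))

theorem seg41 (h : Below (sval lat1 start41.1 start41.2) 118) :
    Below (sval lat1 fin41.1 fin41.2) 121 :=
  below_step lat1_ok nodeTab2_ok edgeTab1_ok step41_2
    (below_step lat1_ok nodeTab2_ok edgeTab1_ok step41_1
    (below_step lat1_ok nodeTab2_ok edgeTab1_ok step41_0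
    (h)))

theorem seg42 (h : Below (sval lat1 start42.1 start42.2) 121) :
    Below (sval lat1 fin42.1 fin42.2) 124 :=
  below_step lat1_ok nodeTab2_ok edgeTab1_ok step42_2
    (below_step lat1_ok nodeTab2_ok edgeTab1_ok step42_1
    (below_step lat1_ok nodeTab2_ok edgeTab1_ok step42_0
    (h)))

theorem seg43 (h : Below (sval lat1 start43.1 start43.2) 124) :
    Below (sval lat1 fin43.1 fin43.2) 127 :=
  below_step lat1_ok nodeTab2_ok edgeTab1_ok step43_2
    (below_step lat1_ok nodeTab2_ok edgeTab1_ok step43_1
    (below_step lat1_ok nodeTab2_ok edgeTab1_ok step43_0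
    (h)))

theorem seg44 (h : Below (sval lat1 start44.1 start44.2) 127) :
    Below (sval lat1 fin44.1 fin44.2) 130 :=
  below_step lat1_ok nodeTab2_ok edgeTab1_ok step44_2
    (below_step lat1_ok nodeTab2_ok edgeTab1_ok step44_1
    (below_step lat1_ok nodeTab2_ok edgeTab1_ok step44_0
    (h)))

theorem seg45 (h : Below (sval lat1 start45.1 start45.2) 130) :
    Below (sval lat1 fin45.1 fin45.2) 133 :=
  below_step lat1_ok nodeTab2_ok edgeTab1_ok step45_2
    (below_step lat1_ok nodeTab2_ok edgeTab1_ok step45_1
    (below_step lat1_ok nodeTab2_ok edgeTab1_ok step45_0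
    (h)))

theorem seg46 (h : Below (sval lat1 start46.1 start46.2) 133) :
    Below (sval lat1 fin46.1 fin46.2) 136 :=
  below_step lat1_ok nodeTab2_ok edgeTab1_ok step46_2
    (below_step lat1_ok nodeTab2_ok edgeTab1_ok step46_1
    (below_step lat1_ok nodeTab2_ok edgeTab1_ok step46_0
    (h)))

theorem seg47 (h : Below (sval lat1 start47.1 start47.2) 136) :
    Below (sval lat1 fin47.1 fin47.2) 139 :=
  below_step lat1_ok nodeTab2_ok edgeTab1_ok step47_2
    (below_step lat1_ok nodeTab2_ok edgeTab1_ok step47_1
    (below_step lat1_ok nodeTab2_ok edgeTab1_ok step47_0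
    (h)))

theorem below_last : Below (sval lat1 fin47.1 fin47.2) 139 := by
  have h0 : Below (sval lat0 start0.1 start0.2) 0 := by
    have e : start0 = (0, 2 ^ 39) := by decide +kernel
    rw [e]
    exact below_zero (P := 39) lat0_ok rfl
  have h1 := seg0 h0
  have e1 : start1 = fin0 := by decide +kernel
  rw [← e1] at h1
  have h2 := seg1 h1
  have e2 : start2 = fin1 := by decide +kernel
  rw [← e2] at h2
  have h3 := seg2 h2
  have e3 : start3 = fin2 := by decide +kernel
  rw [← e3] at h3
  have h4 := seg3 h3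
  have e4 : start4 = fin3 := by decide +kernel
  rw [← e4] at h4
  have h5 := seg4 h4
  have e5 : start5 = fin4 := by decide +kernel
  rw [← e5] at h5
  have h6 := seg5 h5
  have e6 : start6 = fin5 := by decide +kernel
  rw [← e6] at h6
  have h7 := seg6 h6
  have e7 : start7 = fin6 := by decide +kernel
  rw [← e7] at h7
  have h8 := seg7 h7
  have e8 : start8 = fin7 := by decide +kernel
  rw [← e8] at h8
  have h9 := seg8 h8
  have e9 : start9 = fin8 := by decide +kernel
  rw [← e9] at h9
  have h10 := seg9 h9
  have e10 : start10 = fin9 := by decide +kernel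
  rw [← e10] at h10
  have h11 := seg10 h10
  have e11 : start11 = fin10 := by decide +kernel
  rw [← e11] at h11
  have h12 := seg11 h11
  have e12 : start12 = fin11 := by decide +kernel
  rw [← e12] at h12
  have h13 := seg12 h12
  have e13 : start13 = fin12 := by decide +kernel
  rw [← e13] at h13
  have h14 := seg13 h13
  have e14 : start14 = fin13 := by decide +kernel
  rw [← e14] at h14
  have h15 := seg14 h14
  have e15 : start15 = fin14 := by decide +kernel
  rw [← e15] at h15
  have h16 := seg15 h15
  have e16 : start16 = fin15 := by decide +kernel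
  rw [← e16] at h16
  have h17 := seg16 h16
  have e17 : start17 = fin16 := by decide +kernel
  rw [← e17] at h17
  have h18 := seg17 h17
  have e18 : start18 = fin17 := by decide +kernel
  rw [← e18] at h18
  have h19 := seg18 h18
  have e19 : start19 = fin18 := by decide +kernel
  rw [← e19] at h19
  have h20 := seg19 h19
  have e20 : start20 = fin19 := by decide +kernel
  rw [← e20] at h20
  have h21 := seg20 h20
  have e21 : start21 = fin20 := by decide +kernel
  rw [← e21] at h21
  have h22 := seg21 h21
  have e22 : start22 = fin21 := by decide +kernel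
  rw [← e22] at h22
  have h23 := seg22 h22
  have e23 : start23 = fin22 := by decide +kernel
  rw [← e23] at h23
  have h24 := seg23 h23
  have e24 : start24 = fin23 := by decide +kernel
  rw [← e24] at h24
  have h25 := seg24 h24
  have e25 : start25 = fin24 := by decide +kernel
  rw [← e25] at h25
  have h26 := seg25 h25
  have e26 : start26 = fin25 := by decide +kernel
  rw [← e26] at h26
  have h27 := seg26 h26
  have e27 : start27 = fin26 := by decide +kernel
  rw [← e27] at h27
  have h28 := seg27 h27
  have e28 : start28 = fin27 := by decide +kernel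
  rw [← e28] at h28
  have h29 := seg28 h28
  have e29 : start29 = fin28 := by decide +kernel
  rw [← e29] at h29
  have h30 := seg29 h29
  have e30 : start30 = fin29 := by decide +kernel
  rw [← e30] at h30
  have h31 := seg30 h30
  have e31 : start31 = fin30 := by decide +kernel
  rw [← e31] at h31
  have h32 := seg31 h31
  have e32 : start32 = fin31 := by decide +kernel
  rw [← e32] at h32
  have h33 := seg32 h32
  have e33 : start33 = fin32 := by decide +kernel
  rw [← e33] at h33
  have h34 := seg33 h33
  have e34 : start34 = fin33 := by decide +kernel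
  rw [← e34] at h34
  have h35 := seg34 h34
  have e35 : start35 = fin34 := by decide +kernel
  rw [← e35] at h35
  have h36 := seg35 h35
  have e36 : start36 = fin35 := by decide +kernel
  rw [← e36] at h36
  have h37 := seg36 h36
  have e37 : start37 = fin36 := by decide +kernel
  rw [← e37] at h37
  have h38 := seg37 h37
  have e38 : start38 = fin37 := by decide +kernel
  rw [← e38] at h38
  have h39 := seg38 h38
  have e39 : start39 = fin38 := by decide +kernel
  rw [← e39] at h39
  have h40 := seg39 h39
  have e40 : start40 = fin39 := by decide +kernel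
  rw [← e40] at h40
  have h41 := seg40 h40
  have e41 : start41 = fin40 := by decide +kernel
  rw [← e41] at h41
  have h42 := seg41 h41
  have e42 : start42 = fin41 := by decide +kernel
  rw [← e42] at h42
  have h43 := seg42 h42
  have e43 : start43 = fin42 := by decide +kernel
  rw [← e43] at h43
  have h44 := seg43 h43
  have e44 : start44 = fin43 := by decide +kernel
  rw [← e44] at h44
  have h45 := seg44 h44
  have e45 : start45 = fin44 := by decide +kernel
  rw [← e45] at h45
  have h46 := seg45 h45
  have e46 : start46 = fin45 := by decide +kernel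
  rw [← e46] at h46
  have h47 := seg46 h46
  have e47 : start47 = fin46 := by decide +kernel
  rw [← e47] at h47
  have h48 := seg47 h47
  exact h48

theorem fin_ok : finOk lat1 fin47.1 = true := by decide +kernel

/-- The density evolution reaches the small regime. -/
theorem hChan_eventually : ∃ n0, ∀ n, n0 ≤ n →
    1 - 3 / 160 ≤ hChan (q := 3) (fun _ => 1 / 3) (-(1 / 2)) n (regTree 4 n) :=
  ⟨139, fun _ hn => hChan_of_below lat1_ok fin_ok below_last hn⟩

end Vale.P154.Lat.Data
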