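import Vale.Agent.P154.Lattice.Data.Lat0
import Vale.Agent.P154.Lattice.Data.Node0

/-!
# Node table 0 is valid
-/

namespace Vale.P154.Lat.Data

theorem nodeTab0_ok : tall (nleafOk lat0) (lat0.dA + 2) 0 nodeTab0 = true := by decide +kernel

end Vale.P154.Lat.Data
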